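import Crest.Agent.N337.S27.LY0D
import Crest.Agent.N337.LY.Newton

-- ▼ part N337/S27/LY0E
section

/-!
# Row 337, (N0) part E: value, linear term and path lower bounds of the loop generating function
-/

set_option autoImplicit false
set_option linter.unusedSectionVars false

namespace Crest.Agent.N337.LY0

open Finset Equiv Matrix Function Crest.Agent.N337.Rep

variable {S : Type} [Fintype S] [DecidableEq S]

lemma Pk_up {R : Type} [CommRing R] (t b : ℕ → R) (k : ℕ) :
    Pk (fun i => mv 0 (t i) (b i)) k =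
      !![1, ∑ j ∈ range k, t j * ∏ i ∈ range j, b i; 0, ∏ i ∈ range k, b i] := by
  induction k with
  | zero => ext i j; fin_cases i <;> fin_cases j <;> simp [Pk_zero]
  | succ k ih =>
    rw [Pk_succ, ih, sum_range_succ, prod_range_succ]
    ext i j; fin_cases i <;> fin_cases j <;> simp [mv, mul_comm]

lemma Tr_up (π : Perm S) (t b : S → ℝ) (c : Orb π) :
    Tr π (fun v => mv 0 (t v) (b v)) c = 1 + pr π b c := by
  have := prod_ob π (bp c) b
  rw [o_bp] at this
  rw [Tr, Pc, Pk_up, pr, this]; simp [trace_fin_two]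

lemma Ps_zero (π : Perm S) (t b : S → ℝ) :
    Ps π (fun _ => 0) t b = (mat π (fun _ => 1) b).det := by
  rw [det_mat, Ps]
  refine prod_congr rfl fun c _ => ?_
  rw [Tr_up, pr_one fun _ _ => rfl, pr]; ring

lemma Pk_deriv (U G : ℕ → M2 ℝ) (k : ℕ) (a c : Fin 2) :
    HasDerivAt (fun w : ℝ => Pk (fun i => U i + w • G i) k a c)
      ((∑ i ∈ range k, Pk (update U i (G i)) k) a c) 0 := by
  induction k generalizing a with
  | zero => simpa [Pk_zero] using hasDerivAt_const (0 : ℝ) ((1 : M2 ℝ) a c)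
  | succ k ih =>
    have e : ∑ i ∈ range (k + 1), Pk (update U i (G i)) (k + 1) =
        G k * Pk U k + U k * ∑ i ∈ range k, Pk (update U i (G i)) k := by
      rw [sum_range_succ, Pk_succ, update_self, add_comm, Matrix.mul_sum,
        Pk_congr (g := update U k (G k)) (g' := U) (k := k)
          fun i hi => update_of_ne hi.ne _ _]
      congr 1
      exact sum_congr rfl fun i hi => by
        rw [Pk_succ, update_of_ne (mem_range.1 hi).ne']
    rw [e]
    simp only [Pk_succ, mul_apply, Matrix.add_apply, Matrix.smul_apply, smul_eq_mul,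
      ← sum_add_distrib]
    refine HasDerivAt.fun_sum fun l _ => ?_
    have h1 : HasDerivAt (fun w : ℝ => U k a l + w * G k a l) (G k a l) 0 := by
      simpa using ((hasDerivAt_id (0 : ℝ)).mul_const (G k a l)).const_add (U k a l)
    simpa using h1.fun_mul (ih l)

lemma Tr_deriv (π : Perm S) (U G : S → M2 ℝ) (c : Orb π) :
    HasDerivAt (fun w : ℝ => Tr π (fun v => U v + w • G v) c)
      (∑ u ∈ ob π c, Tr π (update U u (G u)) c) 0 := by
  have h := sum_ob π (bp c) fun u => Tr π (update U u (G u)) c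
  rw [o_bp] at h
  have e : ∑ u ∈ ob π c, Tr π (update U u (G u)) c = (∑ i ∈ range (per π (bp c)),
      Pk (update (fun i => U (π^[i] (bp c))) i (G (π^[i] (bp c)))) (per π (bp c))).trace := by
    rw [h, trace_sum]
    refine sum_congr rfl fun i hi => ?_
    rw [Tr, Pc, Pk_congr]
    intro j hj
    by_cases hij : j = i
    · subst hij; simp
    · rw [update_of_ne hij, update_of_ne fun h => hij (it_inj hj (mem_range.1 hi) h)]
  rw [e]
  simp only [Tr, Pc, trace_fin_two]
  exact (Pk_deriv _ _ _ 0 0).fun_add (Pk_deriv _ _ _ 1 1)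

lemma Tr_update (π : Perm S) (U : S → M2 ℝ) (u : S) : ∃ P : M2 ℝ, Pc π U (π u) = U u * P ∧
    ∀ G, Tr π (update U u G) (o π u) = (G * P).trace := by
  obtain ⟨k, hk⟩ : ∃ k, per π (π u) = k + 1 :=
    ⟨_, (Nat.succ_pred_eq_of_pos (per_pos π (π u))).symm⟩
  have h0 : π^[k] (π u) = u := by
    have := it_per π (π u)
    rw [hk, Function.iterate_succ_apply'] at this
    exact π.injective this
  refine ⟨Pk (fun i => U (π^[i] (π u))) k, by rw [Pc, hk, Pk_succ, h0], fun G => ?_⟩
  rw [← o_apply π u, Tr_eq, Pc, hk, Pk_succ, h0, update_self, Pk_congr]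
  intro i hi
  refine update_of_ne (fun h => ?_) _ _
  have := it_inj (x := π u) (i := i) (j := k) (by omega) (by omega) (h.trans h0.symm)
  omega

lemma mat_single (π : Perm S) (b : S → ℝ) (v : S) : mat π (fun _ => 1) b *ᵥ Pi.single v 1 =
    Pi.single v 1 - b v • Pi.single (π v) 1 := by
  funext i; simp [mat_apply, Pi.single_apply]

lemma arc_eq (π : Perm S) (t b : S → ℝ) (hN : (mat π (fun _ => 1) b).det ≠ 0) (x : S) :
    Pc π (fun v => mv 0 (t v) (b v)) x 0 1 =
      (1 - pr π b (o π x)) * (t ⬝ᵥ (mat π (fun _ => 1) b)⁻¹ *ᵥ Pi.single x 1) := by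
  set z : ℕ → S → ℝ := fun j => (∏ i ∈ range j, b (π^[i] x)) • Pi.single (π^[j] x) 1 with hz
  have h1 : mat π (fun _ => 1) b *ᵥ ∑ j ∈ range (per π x), z j =
      (1 - pr π b (o π x)) • Pi.single x 1 := by
    have : ∀ j, mat π (fun _ => 1) b *ᵥ z j = z j - z (j + 1) := fun j => by
      simp only [hz, mulVec_smul, mat_single, smul_sub, smul_smul, prod_range_succ,
        Function.iterate_succ_apply']
    rw [mulVec_sum]
    simp only [this, sum_range_sub']
    simp only [hz, it_per, pr, prod_ob, sub_smul, range_zero, prod_empty, Function.iterate_zero,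
      id]
  have h2 := congrArg (fun y => t ⬝ᵥ (mat π (fun _ => 1) b)⁻¹ *ᵥ y) h1
  simp only [mulVec_mulVec, nonsing_inv_mul _ hN.isUnit, one_mulVec, mulVec_smul,
    dotProduct_smul, smul_eq_mul, dotProduct_sum, hz, dotProduct_single, mul_one] at h2
  rw [← h2, Pc, Pk_up]
  simp [mul_comm]

/-- the permutation matrix. -/
def PM (π : Perm S) : Matrix S S ℝ := Matrix.of fun i j => if i = π j then 1 else 0

lemma mat_eq (π : Perm S) (b : S → ℝ) : mat π (fun _ => 1) b = 1 - PM π * diagonal b := by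
  ext i j; simp [mat_apply, PM, one_apply]

lemma PM_mulVec (π : Perm S) (s : S → ℝ) : PM π *ᵥ s = ∑ u, s u • Pi.single (π u) 1 := by
  funext i; simp [PM, mulVec, dotProduct, Finset.sum_apply, Pi.single_apply]

lemma Ps_deriv (π : Perm S) (s t b : S → ℝ) (hN : (mat π (fun _ => 1) b).det ≠ 0) :
    HasDerivAt (fun w : ℝ => Ps π (fun v => w * s v) t b)
      ((mat π (fun _ => 1) b).det - (mat π (fun _ => 1) b - vecMulVec (PM π *ᵥ s) t).det) 0 := by
  set U : S → M2 ℝ := fun v => mv 0 (t v) (b v) with hU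
  set G : S → M2 ℝ := fun v => !![0, 0; s v, s v * t v] with hG
  have e : ∀ (w : ℝ) v, mv (w * s v) (t v) (b v) = U v + w • G v := by
    intro w v; ext i j; fin_cases i <;> fin_cases j <;> simp [hU, hG, mv, mul_assoc]
  simp only [Ps, e]
  refine (HasDerivAt.fun_finsetProd (u := univ) fun c _ =>
    (Tr_deriv π U G c).sub_const (2 * ∏ v ∈ ob π c, b v)).congr_deriv (Eq.symm ?_)
  rw [det_rank_one hN, PM_mulVec, mulVec_sum, dotProduct_sum, mul_sub, mul_one, sub_sub_cancel,
    mul_sum, ← sum_fiberwise univ (o π)]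
  refine sum_congr rfl fun c _ => ?_
  rw [smul_eq_mul, mul_sum]
  refine sum_congr rfl fun u hu => ?_
  obtain rfl := (mem_filter.1 hu).2
  obtain ⟨P, h1, h2⟩ := Tr_update π U u
  have h3 := arc_eq π t b hN (π u)
  rw [h1, o_apply] at h3
  have h4 : (G u * P).trace = s u * (U u * P) 0 1 := by
    simp [hG, hU, mv, trace_fin_two, mul_apply, vecMul, dotProduct]; ring
  rw [h2, h4, h3, det_mat, ← mul_prod_erase _ _ (mem_univ (o π u)), mulVec_smul,
    dotProduct_smul, smul_eq_mul, pr_one fun _ _ => rfl]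
  have : ∀ c, Tr π (fun v => U v + (0 : ℝ) • G v) c - 2 * ∏ v ∈ ob π c, b v =
      pr π (fun _ => 1) c - pr π b c := fun c => by
    simp only [zero_smul, add_zero, hU, Tr_up]
    rw [pr_one (a := fun _ => 1) fun _ _ => rfl, pr]; ring
  simp only [this]
  ring

section lower
variable {g : ℕ → M2 ℝ}

lemma Pk_nonneg (hg : ∀ i a c, 0 ≤ g i a c) (k : ℕ) (a c : Fin 2) : 0 ≤ Pk g k a c := by
  induction k generalizing a with
  | zero => rw [Pk_zero, one_apply]; split_ifs <;> norm_num
  | succ k ih => rw [Pk_succ, mul_apply]; exact sum_nonneg fun l _ => mul_nonneg (hg _ _ _) (ih l)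

lemma Pk_path (hg : ∀ i a c, 0 ≤ g i a c) (c : ℕ → Fin 2) (k : ℕ) :
    ∏ i ∈ range k, g i (c (i + 1)) (c i) ≤ Pk g k (c k) (c 0) := by
  induction k with
  | zero => simp [Pk_zero]
  | succ k ih =>
    rw [Pk_succ, mul_apply, prod_range_succ, mul_comm]
    exact (mul_le_mul_of_nonneg_left ih (hg _ _ _)).trans (single_le_sum
      (fun l _ => mul_nonneg (hg k (c (k + 1)) l) (Pk_nonneg hg k l (c 0))) (mem_univ (c k)))

lemma Pk_two (hg : ∀ i a c, 0 ≤ g i a c) (c c' : ℕ → Fin 2) (h0 : c' 0 = c 0) (k : ℕ)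
    (hk : c' k = c k) (hne : ∃ i ≤ k, c' i ≠ c i) : ∏ i ∈ range k, g i (c (i + 1)) (c i) +
      ∏ i ∈ range k, g i (c' (i + 1)) (c' i) ≤ Pk g k (c k) (c 0) := by
  induction k with
  | zero => obtain ⟨i, hi, h⟩ := hne; obtain rfl : i = 0 := by omega
            exact absurd h0 h
  | succ k ih =>
    have hn := fun l => mul_nonneg (hg k (c (k + 1)) l) (Pk_nonneg hg k l (c 0))
    rw [Pk_succ, mul_apply, prod_range_succ, prod_range_succ, hk]
    by_cases h : c' k = c k
    · obtain ⟨i, hi, h'⟩ := hne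
      have := ih h ⟨i, by by_contra hh; exact h' (by rwa [show i = k + 1 by omega]), h'⟩
      rw [h, ← add_mul, mul_comm]
      exact (mul_le_mul_of_nonneg_left this (hg _ _ _)).trans
        (single_le_sum (fun l _ => hn l) (mem_univ (c k)))
    · have h1 := mul_le_mul_of_nonneg_left (Pk_path hg c k) (hg k (c (k + 1)) (c k))
      have h2 := mul_le_mul_of_nonneg_left (Pk_path hg c' k) (hg k (c (k + 1)) (c' k))
      have h3 := sum_le_sum_of_subset_of_nonneg (subset_univ {c' k, c k}) fun l _ _ => hn l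
      rw [sum_pair h] at h3
      rw [h0] at h2
      linarith [mul_comm (g k (c (k + 1)) (c k)) (∏ i ∈ range k, g i (c (i + 1)) (c i)),
        mul_comm (g k (c (k + 1)) (c' k)) (∏ i ∈ range k, g i (c' (i + 1)) (c' i))]

end lower

lemma mv_nonneg {s t b : ℝ} (hs : 0 ≤ s) (ht : 0 ≤ t) (hb : 0 ≤ b) (a c : Fin 2) :
    0 ≤ mv s t b a c := by
  fin_cases a <;> fin_cases c <;> simp [mv, hs, ht]; positivity

open Classical in
/-- the extra weight of a loop: `1 - ∏ b` if the colouring is constant on it, else `1`. -/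
noncomputable def om (π : Perm S) (σ : S → Fin 2) (b : S → ℝ) (c : Orb π) : ℝ :=
  if ∀ v, o π v = c → σ (π v) = σ v then 1 - pr π b c else 1

variable {s t b : S → ℝ}

lemma om_ge (π : Perm S) (σ : S → Fin 2) (hb : ∀ v, 0 ≤ b v ∧ b v ≤ 1) (c : Orb π) :
    0 ≤ 1 - pr π b c ∧ 1 - pr π b c ≤ om π σ b c := by
  have h0 := pr_nonneg (π := π) (fun v => (hb v).1) c
  have h1 := pr_le_one (π := π) (fun v => (hb v).1) (fun v => (hb v).2) c
  unfold om; split_ifs <;> constructor <;> linarith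

lemma loop_lb (π : Perm S) (hs : ∀ v, 0 ≤ s v) (ht : ∀ v, 0 ≤ t v) (hb : ∀ v, 0 ≤ b v ∧ b v ≤ 1)
    (σ : S → Fin 2) (c : Orb π) :
    (∏ v ∈ ob π c, mv (s v) (t v) (b v) (σ (π v)) (σ v)) * om π σ b c ≤
      Tr π (fun v => mv (s v) (t v) (b v)) c - 2 * ∏ v ∈ ob π c, b v := by
  obtain ⟨x, rfl⟩ := o_surj π c
  have hB0 := pr_nonneg (π := π) (fun v => (hb v).1) (o π x)
  have hB1 := pr_le_one (π := π) (fun v => (hb v).1) (fun v => (hb v).2) (o π x)
  set g : ℕ → M2 ℝ := fun i => mv (s (π^[i] x)) (t (π^[i] x)) (b (π^[i] x)) with hgd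
  have hg : ∀ i a c, 0 ≤ g i a c := fun i => mv_nonneg (hs _) (ht _) (hb _).1
  set k := per π x with hk
  set col : ℕ → Fin 2 := fun i => σ (π^[i] x) with hcol
  have hck : col k = col 0 := by simp only [hcol, hk, it_per, Function.iterate_zero, id]
  have e0 : ∏ i ∈ range k, g i 0 0 = 1 := prod_eq_one fun i _ => by simp [hgd, mv]
  have e1 : pr π b (o π x) ≤ ∏ i ∈ range k, g i 1 1 := by
    rw [pr, prod_ob]
    exact prod_le_prod (fun i _ => (hb _).1) fun i _ => by
      simpa [hgd, mv] using mul_nonneg (hs _) (ht _)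
  have p0 := Pk_path hg (fun _ => 0) k
  have p1 := Pk_path hg (fun _ => 1) k
  have e2 : ∏ v ∈ ob π (o π x), mv (s v) (t v) (b v) (σ (π v)) (σ v) =
      ∏ i ∈ range k, g i (col (i + 1)) (col i) := by
    rw [prod_ob]; simp only [hgd, hcol, hk, Function.iterate_succ_apply']
  rw [Tr_eq, e2, Pc, trace_fin_two, ← pr, om]
  change _ ≤ Pk g k 0 0 + Pk g k 1 1 - _
  split_ifs with h
  · have hc : ∀ i, col i = col 0 := by
      intro i
      induction i with
      | zero => rfl
      | succ i ih =>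
        rw [← ih]; simp only [hcol, Function.iterate_succ_apply']; exact h _ (o_it π i x)
    simp only [hc]
    generalize col 0 = a
    fin_cases a
    · simp only [Fin.zero_eta, e0]; linarith
    · simp only [Fin.mk_one]; nlinarith [sq_nonneg (1 - pr π b (o π x))]
  · have hne : ∃ i ≤ k, col 0 ≠ col i := by
      by_contra hh
      push Not at hh
      refine h fun v hv => ?_
      have hv' : v ∈ ob π (o π x) := mem_filter.2 ⟨mem_univ _, hv⟩
      rw [ob_eq] at hv'
      obtain ⟨i, hi, rfl⟩ := mem_image.1 hv'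
      have hi' := mem_range.1 hi
      have := (hh (i + 1) hi').symm.trans (hh i hi'.le)
      simpa only [hcol, Function.iterate_succ_apply'] using this
    have := Pk_two hg col (fun _ => col 0) rfl k hck.symm hne
    rw [hck] at this
    revert this
    generalize col 0 = a
    intro this
    fin_cases a
    · simp only [Fin.zero_eta] at this; linarith
    · simp only [Fin.mk_one] at this; linarith

/-- every colouring gives a lower bound. -/
theorem Ps_lb (π : Perm S) (hs : ∀ v, 0 ≤ s v) (ht : ∀ v, 0 ≤ t v) (hb : ∀ v, 0 ≤ b v ∧ b v ≤ 1)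
    (σ : S → Fin 2) :
    (∏ v, mv (s v) (t v) (b v) (σ (π v)) (σ v)) * ∏ c, om π σ b c ≤ Ps π s t b := by
  rw [← prod_fiberwise univ (o π), ← prod_mul_distrib, Ps]
  exact prod_le_prod (fun c _ => mul_nonneg
    (prod_nonneg fun v _ => mv_nonneg (hs v) (ht v) (hb v).1 _ _)
    ((om_ge π σ hb c).1.trans (om_ge π σ hb c).2)) fun c _ => loop_lb π hs ht hb σ c

lemma Ps_nonneg (π : Perm S) (hs : ∀ v, 0 ≤ s v) (ht : ∀ v, 0 ≤ t v)
    (hb : ∀ v, 0 ≤ b v ∧ b v ≤ 1) : 0 ≤ Ps π s t b :=
  le_trans (mul_nonneg (prod_nonneg fun v _ => mv_nonneg (hs v) (ht v) (hb v).1 _ _)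
    (prod_nonneg fun c _ => (om_ge π (fun _ => 0) hb c).1.trans (om_ge π _ hb c).2))
    (Ps_lb π hs ht hb fun _ => 0)

end Crest.Agent.N337.LY0
end

-- ▼ part N337/S27/LY0

/-!
# Row 337, (N0): Gaussian domination in the determinant (green) measure

`N0` : `∑ ξ, Pw p ξ * ∏ loops (Tr M - 2 det M) ≤ det A * exp (tᵀ A⁻¹ K s)`, where `K = Kb ex ey p`
is the averaged space-time step and `A = 1 - K * diagonal b`.
-/

set_option autoImplicit false
set_option linter.unusedSectionVars false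

namespace Crest.Agent.N337.LY0

open Finset Equiv Matrix Function Crest.Agent.N337.Rep Filter Topology

variable {Λ : Type} [Fintype Λ] [DecidableEq Λ] {T : ℕ} [NeZero T] (ex ey : Fin T → Λ)

/-- the averaged space-time step (a stochastic matrix, entry `(target, source)`). -/
def Kb (p : Fin T → ℝ) : Matrix (Fin T × Λ) (Fin T × Λ) ℝ := Matrix.of fun a c =>
  if a.1 = c.1 + 1 then (if a.2 = c.2 then 1 else 0) -
    p c.1 * (Rep.ev (ex c.1) (ey c.1) a.2 * Rep.ev (ex c.1) (ey c.1) c.2) else 0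

lemma Kb_apply (p : Fin T → ℝ) (r s : Fin T) (y x : Λ) : Kb ex ey p (r, y) (s, x) =
    if r = s + 1 then (1 - p s) * (if y = x then 1 else 0) +
      p s * (if y = swap (ex s) (ey s) x then 1 else 0) else 0 := by
  have h := ite_sg (ex s) (ey s) true y x
  simp only [sg, if_true, one_mul] at h
  by_cases hr : r = s + 1
  · simp only [Kb, of_apply, hr, if_true, h]; ring
  · simp [Kb, hr]

lemma Kb_nonneg {p : Fin T → ℝ} (hp : ∀ s, 0 ≤ p s ∧ p s ≤ 1) (a c : Fin T × Λ) :
    0 ≤ Kb ex ey p a c := by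
  obtain ⟨r, y⟩ := a
  obtain ⟨s, x⟩ := c
  have h1 := (hp s).1
  have h2 := sub_nonneg.2 (hp s).2
  rw [Kb_apply]; split_ifs <;> positivity

lemma Kb_bit (ξ : Fin T → Bool) :
    Kb ex ey (fun s => if ξ s = true then 1 else 0) = PM (Sg ex ey ξ) := by
  ext ⟨r, y⟩ ⟨s, x⟩
  simp only [Kb, PM, of_apply, Sg_apply, Prod.mk.injEq, ite_and, ite_sg]

/-- the determinant is multi-affine in the coins. -/
theorem avg_det (p : Fin T → ℝ) (M : Matrix (Fin T × Λ) (Fin T × Λ) ℝ) :
    ∑ ξ, Pw p ξ * (1 - PM (Sg ex ey ξ) * M).det = (1 - Kb ex ey p * M).det := by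
  have h := avg_aff (fun x => (1 - Kb ex ey x * M).det) (fun s x c => ?_) p
  · simpa only [Kb_bit, Pw, wb] using h
  set a : Fin T × Λ → ℝ := fun v => if v.1 = s + 1 then Rep.ev (ex s) (ey s) v.2 else 0
  set a' : Fin T × Λ → ℝ := fun v => if v.1 = s then Rep.ev (ex s) (ey s) v.2 else 0
  have e : ∀ r : ℝ, 1 - Kb ex ey (update x s r) * M =
      1 - Kb ex ey (update x s 0) * M + r • vecMulVec a (a' ᵥ* M) := by
    intro r
    have : Kb ex ey (update x s r) = Kb ex ey (update x s 0) - r • vecMulVec a a' := by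
      ext ⟨r', y⟩ ⟨s', x'⟩
      simp only [Kb, of_apply, Matrix.sub_apply, Matrix.smul_apply, vecMulVec_apply, a, a',
        smul_eq_mul]
      by_cases hs : s' = s
      · subst hs; by_cases hr : r' = s' + 1 <;> simp [hr]
      · simp [hs]
    rw [this, Matrix.sub_mul, Matrix.smul_mul, vecMulVec_mul]; abel
  beta_reduce
  rw [e c, e 1, det_aff, one_smul]

theorem avg_green (p : Fin T → ℝ) (b : Fin T × Λ → ℝ) :
    ∑ ξ, Pw p ξ * ∏ c, (1 - pr (Sg ex ey ξ) b c) = (1 - Kb ex ey p * diagonal b).det := by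
  rw [← avg_det]
  refine sum_congr rfl fun ξ _ => ?_
  rw [← mat_eq, det_mat]
  simp only [pr_one fun _ _ => rfl]

variable {p : Fin T → ℝ} {b s t : Fin T × Λ → ℝ}

lemma det_mat_pos {S : Type} [Fintype S] [DecidableEq S] (π : Perm S) {b : S → ℝ}
    (hb : ∀ v, 0 ≤ b v ∧ b v < 1) : 0 < (mat π (fun _ => 1) b).det := by
  rw [det_mat]
  refine prod_pos fun c _ => ?_
  rw [pr_one fun _ _ => rfl, sub_pos, pr, ← mul_prod_erase _ _
    (show bp c ∈ univ.filter fun v => o π v = c from mem_filter.2 ⟨mem_univ _, o_bp c⟩)]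
  exact (mul_le_of_le_one_right (hb _).1
    (prod_le_one (fun v _ => (hb v).1) fun v _ => (hb v).2.le)).trans_lt (hb _).2

theorem N0_strict (hp : ∀ s, 0 ≤ p s ∧ p s ≤ 1) (hp2 : ∀ s, p s ≠ 1 / 2)
    (hb : ∀ v, 0 < b v ∧ b v < 1) (hs : ∀ v, 0 < s v) (ht : ∀ v, 0 < t v) :
    ∑ ξ, Pw p ξ * Ps (Sg ex ey ξ) s t b ≤ (1 - Kb ex ey p * diagonal b).det *
      Real.exp (1 - (1 - Kb ex ey p * diagonal b - vecMulVec (Kb ex ey p *ᵥ s) t).det /
        (1 - Kb ex ey p * diagonal b).det) := by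
  have hN := fun ξ => det_mat_pos (Sg ex ey ξ) fun v => ⟨(hb v).1.le, (hb v).2⟩
  set F : ℝ → ℝ := fun w => ∑ ξ, Pw p ξ * Ps (Sg ex ey ξ) (fun v => w * s v) t b with hF
  set D := (1 - Kb ex ey p * diagonal b).det with hD
  set D' := (1 - Kb ex ey p * diagonal b - vecMulVec (Kb ex ey p *ᵥ s) t).det with hD'
  have e0 : ∑ ξ, Pw p ξ * (mat (Sg ex ey ξ) (fun _ => 1) b).det = D := by
    simp only [mat_eq, avg_det, hD]
  have hF0 : F 0 = D := by simp only [hF, zero_mul, Ps_zero, e0]
  have hD0 : 0 < D := by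
    rw [← e0]
    obtain ⟨ξ, -, hξ⟩ := exists_ne_zero_of_sum_ne_zero ((sum_Pw p).trans_ne one_ne_zero)
    exact sum_pos' (fun ξ _ => mul_nonneg (Pw_nonneg hp ξ) (hN ξ).le)
      ⟨ξ, mem_univ _, mul_pos ((Pw_nonneg hp ξ).lt_of_ne hξ.symm) (hN ξ)⟩
  have hd : HasDerivAt F (D - D') 0 := by
    refine (HasDerivAt.fun_sum fun ξ _ =>
      (Ps_deriv (Sg ex ey ξ) s t b (hN ξ).ne').const_mul (Pw p ξ)).congr_deriv ?_
    simp only [mul_sub, sum_sub_distrib, e0]
    congr 1
    have h := avg_det ex ey p (diagonal b + vecMulVec s t)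
    simpa only [mat_eq, hD', Matrix.mul_add, mul_vecMulVec, sub_sub] using h
  set Q : Polynomial ℂ := ∑ ξ, Polynomial.C (Pw p ξ : ℂ) * Ps (Sg ex ey ξ)
    (fun v => Polynomial.X * Polynomial.C (s v : ℂ)) (fun v => Polynomial.C (t v : ℂ))
    fun v => Polynomial.C (b v : ℂ) with hQ
  have hQe : ∀ z : ℂ, Q.eval z = ∑ ξ, (Pw p ξ : ℂ) * Ps (Sg ex ey ξ) (fun v => z * s v)
      (fun v => (t v : ℂ)) fun v => (b v : ℂ) := by
    intro z
    rw [← Polynomial.coe_evalRingHom, hQ, map_sum]
    simp only [map_mul, Ps_map, Polynomial.coe_evalRingHom, Polynomial.eval_C, Polynomial.eval_X]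
  have hQr : ∀ w : ℝ, Q.eval (w : ℂ) = (F w : ℂ) := by
    intro w
    rw [hQe, hF, ← Complex.ofRealHom_eq_coe (∑ ξ, _), map_sum]
    simp only [map_mul, Ps_map, Complex.ofRealHom_eq_coe]
  have hQd : Q.derivative.eval 0 = ((D - D' : ℝ) : ℂ) := by
    have h1 := (Q.hasDerivAt ((0 : ℝ) : ℂ)).comp_ofReal
    simp only [hQr] at h1
    exact h1.unique hd.ofReal_comp
  have h0 := hQr 0
  have h1 := hQr 1
  rw [Complex.ofReal_zero, hF0] at h0
  rw [Complex.ofReal_one] at h1
  have L := LY.L4 Q fun z hz => by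
    by_cases hz0 : z = 0
    · rw [hz0, h0]; exact_mod_cast hD0.ne'
    · rw [hQe]
      exact ne_zero ex ey hp hp2 (fun v => ⟨(hb v).1, (hb v).2.le⟩) hs ht fun h =>
        hz ⟨h.1, h.2.lt_of_ne fun h' => hz0 (Complex.ext h' h.1)⟩
  rw [h0, h1, hQd, ← Complex.ofReal_div, Complex.ofReal_re, Complex.norm_real, Complex.norm_real,
    Real.norm_of_nonneg hD0.le, sub_div, div_self hD0.ne'] at L
  simpa only [hF, one_mul] using (le_abs_self _).trans L

/-- **(N0)** Gaussian domination in the determinant measure. -/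
theorem N0 (hp : ∀ s, 0 ≤ p s ∧ p s ≤ 1) (hb : ∀ v, 0 ≤ b v ∧ b v ≤ 1) (hs : ∀ v, 0 ≤ s v)
    (ht : ∀ v, 0 ≤ t v) (hA : (1 - Kb ex ey p * diagonal b).det ≠ 0) :
    ∑ ξ, Pw p ξ * Ps (Sg ex ey ξ) s t b ≤ (1 - Kb ex ey p * diagonal b).det *
      Real.exp (t ⬝ᵥ (1 - Kb ex ey p * diagonal b)⁻¹ *ᵥ (Kb ex ey p *ᵥ s)) := by
  set pe : ℝ → Fin T → ℝ := fun e r => if p r = 1 / 2 then (1 - e) / 2 else p r with hpe
  set be : ℝ → Fin T × Λ → ℝ := fun e v => (1 - e) * b v + e / 2 with hbe
  have cp : ∀ r, Continuous fun e => pe e r := fun r => by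
    simp only [hpe]; split_ifs <;> fun_prop
  have cb : ∀ v, Continuous fun e => be e v := fun v => by simp only [hbe]; fun_prop
  have cK : Continuous fun e => Kb ex ey (pe e) := continuous_matrix fun a c => by
    have := cp c.1
    simp only [Kb, of_apply]; split_ifs <;> fun_prop
  have cA : Continuous fun e => 1 - Kb ex ey (pe e) * diagonal (be e) :=
    continuous_const.sub (cK.matrix_mul (continuous_pi cb).matrix_diagonal)
  have cA' : Continuous fun e => 1 - Kb ex ey (pe e) * diagonal (be e) -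
      vecMulVec (Kb ex ey (pe e) *ᵥ fun v => s v + e) fun v => t v + e :=
    cA.sub ((cK.matrix_mulVec (by fun_prop)).matrix_vecMulVec (by fun_prop))
  have cL : Continuous fun e => ∑ ξ, Pw (pe e) ξ *
      Ps (Sg ex ey ξ) (fun v => s v + e) (fun v => t v + e) (be e) := by
    refine continuous_finsetSum _ fun ξ _ => Continuous.mul ?_ ?_
    · refine continuous_finsetProd _ fun r _ => ?_
      have := cp r
      unfold wb; split_ifs <;> fun_prop
    · refine continuous_finsetProd _ fun c _ => (Tr_cont _ (fun v => ?_) c).sub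
        (continuous_const.mul (continuous_finsetProd _ fun v _ => cb v))
      have := cb v
      refine continuous_matrix fun i j => ?_
      fin_cases i <;> fin_cases j <;> simp [mv] <;> fun_prop
  have p0 : pe 0 = p := by
    funext r; simp only [hpe]; split_ifs with h
    · rw [h]; norm_num
    · rfl
  have b0 : be 0 = b := by funext v; simp [hbe]
  have cR : ContinuousAt (fun e => (1 - Kb ex ey (pe e) * diagonal (be e)).det *
      Real.exp (1 - (1 - Kb ex ey (pe e) * diagonal (be e) -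
        vecMulVec (Kb ex ey (pe e) *ᵥ fun v => s v + e) fun v => t v + e).det /
        (1 - Kb ex ey (pe e) * diagonal (be e)).det)) 0 :=
    cA.matrix_det.continuousAt.mul (continuousAt_const.sub (cA'.matrix_det.continuousAt.div
      cA.matrix_det.continuousAt (by rwa [p0, b0]))).rexp
  have key := le_of_tendsto_of_tendsto (b := 𝓝[>] (0 : ℝ))
    (cL.continuousAt.tendsto.mono_left nhdsWithin_le_nhds)
    (cR.tendsto.mono_left nhdsWithin_le_nhds) (by
      filter_upwards [Ioo_mem_nhdsGT (zero_lt_one' ℝ)] with e he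
      refine N0_strict ex ey (fun r => ?_) (fun r => ?_) (fun v => ?_)
        (fun v => add_pos_of_nonneg_of_pos (hs v) he.1)
        fun v => add_pos_of_nonneg_of_pos (ht v) he.1
      · simp only [hpe]; split_ifs
        · constructor <;> linarith [he.1, he.2]
        · exact hp r
      · simp only [hpe]; split_ifs with h
        · intro h'; linarith [he.1]
        · exact h
      · simp only [hbe]
        constructor <;> nlinarith [he.1, he.2, (hb v).1, (hb v).2])
  simp only [p0, b0, add_zero] at key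
  rwa [det_rank_one hA, mul_div_cancel_left₀ _ hA, sub_sub_cancel] at key


end Crest.Agent.N337.LY0
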