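import Crest.Agent.N337.S27.LY0A
import Crest.Agent.N337.Rep.Main

-- ▼ part N337/S27/LY0B
section

/-!
# Row 337, (N0) part B: the ellipse lemma, iterated two-point averages, rank-one updates
-/

set_option autoImplicit false
set_option linter.unusedSectionVars false

namespace Crest.Agent.N337.LY0

open Finset Equiv Matrix Function

/-- a real-linear form on real `2 × 2` matrices with complex values. -/
def Lf (Γ : M2 ℂ) (h : M2 ℝ) : ℂ :=
  Γ 0 0 * h 0 0 + Γ 0 1 * h 0 1 + Γ 1 0 * h 1 0 + Γ 1 1 * h 1 1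

lemma Lf_comb (Γ : M2 ℂ) (a b : ℝ) (h k : M2 ℝ) :
    Lf Γ (a • h + b • k) = a * Lf Γ h + b * Lf Γ k := by
  simp only [Lf, Matrix.add_apply, Matrix.smul_apply, smul_eq_mul]; push_cast; ring

lemma Lf_comb' (Γ Γ' : M2 ℂ) (a b : ℂ) (h : M2 ℝ) :
    Lf (a • Γ + b • Γ') h = a * Lf Γ h + b * Lf Γ' h := by
  simp only [Lf, Matrix.add_apply, Matrix.smul_apply, smul_eq_mul]; ring

lemma Lf_neg (Γ : M2 ℂ) (h : M2 ℝ) : Lf Γ (-h) = -Lf Γ h := by
  simp only [Lf, Matrix.neg_apply]; push_cast; ring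

lemma det_neg2 (h : M2 ℝ) : (-h).det = h.det := by
  simp only [det_fin_two, Matrix.neg_apply]; ring

lemma ker_or_onto (A B z : ℂ) : (∃ x y : ℝ, x * A + y * B = z) ∨
    ∃ x y : ℝ, 0 < x ^ 2 + y ^ 2 ∧ x * A + y * B = 0 := by
  by_cases h : A.re * B.im - A.im * B.re = 0
  · right
    by_cases h1 : 0 < B.re ^ 2 + (-A.re) ^ 2
    · refine ⟨B.re, -A.re, h1, Complex.ext ?_ ?_⟩ <;> simp <;> linarith
    by_cases h2 : 0 < B.im ^ 2 + (-A.im) ^ 2
    · have e1 : B.re = 0 := by nlinarith [sq_nonneg B.re, sq_nonneg A.re]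
      have e2 : A.re = 0 := by nlinarith [sq_nonneg B.re, sq_nonneg A.re]
      refine ⟨B.im, -A.im, h2, Complex.ext ?_ ?_⟩ <;> simp [e1, e2]
      ring
    · have e2 : A.re = 0 := by nlinarith [sq_nonneg B.re, sq_nonneg A.re]
      have e3 : A.im = 0 := by nlinarith [sq_nonneg B.im, sq_nonneg A.im]
      refine ⟨1, 0, by norm_num, Complex.ext ?_ ?_⟩ <;> simp [e2, e3]
  · left
    refine ⟨(z.re * B.im - z.im * B.re) / (A.re * B.im - A.im * B.re),
      (A.re * z.im - A.im * z.re) / (A.re * B.im - A.im * B.re), Complex.ext ?_ ?_⟩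
    · simp only [Complex.add_re, Complex.re_ofReal_mul, div_mul_eq_mul_div, ← add_div]
      rw [div_eq_iff h]; ring
    · simp only [Complex.add_im, Complex.im_ofReal_mul, div_mul_eq_mul_div, ← add_div]
      rw [div_eq_iff h]; ring

/-- the ellipse lemma. -/
theorem ellipse {α : ℂ} {Γ : M2 ℂ} (H : ∀ h : M2 ℝ, h.det = 1 → α + Lf Γ h ≠ 0) {d : ℝ}
    (hd0 : d ≠ 0) (hd : |d| ≤ 1) {m : M2 ℝ} (hm : m.det = 1) : d * α + Lf Γ m ≠ 0 := by
  intro h0
  set m0 : M2 ℝ := d⁻¹ • m with hm0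
  have hd' : (d : ℂ) ≠ 0 := by exact_mod_cast hd0
  have e0 : α + Lf Γ m0 = 0 := by
    have := Lf_comb Γ d⁻¹ 0 m m
    simp only [zero_smul, add_zero, Complex.ofReal_zero, zero_mul, Complex.ofReal_inv] at this
    rw [hm0, this]; field_simp; linear_combination h0
  have e1 : 1 ≤ m0.det := by
    rw [hm0, det_smul, hm, mul_one, Fintype.card_fin, inv_pow]
    refine (one_le_inv₀ (by positivity)).2 ?_
    rw [← sq_abs]; exact pow_le_one₀ (abs_nonneg _) hd
  obtain ⟨n, hn, hn1⟩ : ∃ n : M2 ℝ, α + Lf Γ n = 0 ∧ n.det ≤ 1 := by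
    have hL : ∀ x y : ℝ, Lf Γ !![x, y; y, -x] = x * (Γ 0 0 - Γ 1 1) + y * (Γ 0 1 + Γ 1 0) := by
      intro x y; simp [Lf]; ring
    rcases ker_or_onto (Γ 0 0 - Γ 1 1) (Γ 0 1 + Γ 1 0) (-α) with ⟨x, y, h⟩ | ⟨x, y, hq, h⟩
    · refine ⟨!![x, y; y, -x], by rw [hL, h]; ring, ?_⟩
      rw [det_fin_two_of]; nlinarith [sq_nonneg x, sq_nonneg y]
    · set c := m0 1 1 * x - m0 0 0 * x - m0 0 1 * y - m0 1 0 * y with hc
      have hdet : ∀ r : ℝ, ((1 : ℝ) • m0 + r • !![x, y; y, -x]).det =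
          m0.det + r * c - r ^ 2 * (x ^ 2 + y ^ 2) := by
        intro r; simp [det_fin_two, hc]; ring
      set ρ := m0.det / (x ^ 2 + y ^ 2) + 1 with hρ
      have hρ1 : 1 ≤ ρ := le_add_of_nonneg_left (by positivity)
      have hρ2 : m0.det ≤ ρ ^ 2 * (x ^ 2 + y ^ 2) := by
        have : ρ * (x ^ 2 + y ^ 2) = m0.det + (x ^ 2 + y ^ 2) := by rw [hρ]; field_simp
        nlinarith [mul_le_mul_of_nonneg_right hρ1 (show 0 ≤ ρ * (x ^ 2 + y ^ 2) by positivity)]
      obtain ⟨r, hr1, hr2⟩ : ∃ r : ℝ, r ^ 2 = ρ ^ 2 ∧ r * c ≤ 0 := by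
        rcases le_total 0 c with h' | h'
        · exact ⟨-ρ, by ring, by nlinarith⟩
        · exact ⟨ρ, rfl, by nlinarith⟩
      refine ⟨(1 : ℝ) • m0 + r • !![x, y; y, -x], ?_, by rw [hdet, hr1]; linarith⟩
      rw [Lf_comb, hL, h]; simpa using e0
  have hc : Continuous fun t : ℝ => ((1 - t) • n + t • m0).det := by fun_prop
  obtain ⟨t, -, ht⟩ := intermediate_value_Icc zero_le_one hc.continuousOn
    (show (1 : ℝ) ∈ _ from ⟨by simpa using hn1, by simpa using e1⟩)
  refine H _ ht ?_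
  rw [Lf_comb]; push_cast
  linear_combination (1 - (t : ℂ)) * hn + t * e0

section iter
variable {ι X K : Type} [Fintype ι] [DecidableEq ι] [CommRing K]

/-- a property that survives every two-point average survives the full average. -/
theorem bool_ind (P : ((ι → X) → K) → Prop) (w : ι → Bool → K) (u : ι → Bool → X → X)
    (hs : ∀ i Φ, P Φ → P fun h => w i false * Φ (update h i (u i false (h i))) +
      w i true * Φ (update h i (u i true (h i)))) {Φ : (ι → X) → K} (h0 : P Φ) :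
    P fun h => ∑ ε : ι → Bool, (∏ i, w i (ε i)) * Φ fun i => u i (ε i) (h i) := by
  have key : ∀ U : Finset ι, P fun h => ∑ A ∈ U.powerset, (∏ i ∈ U, w i (decide (i ∈ A))) *
      Φ fun i => if i ∈ U then u i (decide (i ∈ A)) (h i) else h i := by
    intro U
    induction U using Finset.induction_on with
    | empty => simpa using h0
    | insert j U hj ih =>
      convert hs j _ ih using 2 with h
      rw [sum_powerset_insert hj, mul_sum, mul_sum]
      congr 1
      · refine sum_congr rfl fun A hA => ?_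
        have hA' : j ∉ A := fun h => hj (mem_powerset.1 hA h)
        rw [prod_insert hj, mul_assoc]
        simp only [hA', decide_false]
        congr 3
        funext i
        by_cases hi : i = j
        · subst hi; simp [hj, hA']
        · simp [hi]
      · refine sum_congr rfl fun A hA => ?_
        rw [prod_insert hj, mul_assoc]
        simp only [mem_insert_self, decide_true]
        congr 2
        · refine prod_congr rfl fun i hi => ?_
          have : i ≠ j := fun h => hj (h ▸ hi)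
          simp [this]
        · congr 1
          funext i
          by_cases hi : i = j
          · subst hi; simp [hj]
          · simp [hi]
  convert key univ using 2 with h
  symm
  refine sum_bij' (fun A _ i => decide (i ∈ A)) (fun ε _ => univ.filter fun i => ε i = true)
    (fun _ _ => mem_univ _) (fun _ _ => by simp) (fun A _ => by ext i; simp)
    (fun ε _ => by funext i; simp) fun A _ => by simp

/-- nonvanishing on `SL₂(ℝ)^ι` and affine in every variable. -/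
def Good (Φ : (ι → M2 ℝ) → ℂ) : Prop :=
  (∀ h, (∀ i, (h i).det = 1) → Φ h ≠ 0) ∧ ∀ i h, (∀ j, (h j).det = 1) →
    ∃ α Γ, ∀ k : M2 ℝ, k.det = 1 → Φ (update h i k) = α + Lf Γ k

/-- signed weights of an insertion. -/
noncomputable def sw (d : ℝ) (b : Bool) : ℝ := if b = true then -((1 - d) / 2) else (1 + d) / 2

/-- sign of a bit. -/
def sn (b : Bool) : ℝ := if b = true then -1 else 1

lemma det_update {h : ι → M2 ℝ} (hh : ∀ j, (h j).det = 1) (i : ι) {k : M2 ℝ} (hk : k.det = 1)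
    (j : ι) : (update h i k j).det = 1 := by
  by_cases hj : j = i
  · subst hj; simpa using hk
  · simpa [hj] using hh j

theorem Good.avg {Φ : (ι → M2 ℝ) → ℂ} (hΦ : Good Φ) {d : ι → ℝ} (hd0 : ∀ i, d i ≠ 0)
    (hd : ∀ i, |d i| ≤ 1) {m : ι → M2 ℝ} (hm : ∀ i, (m i).det = 1) :
    ∑ ε : ι → Bool, (∏ i, (sw (d i) (ε i) : ℂ)) * Φ (fun i => sn (ε i) • m i) ≠ 0 := by
  refine (bool_ind Good (fun i b => (sw (d i) b : ℂ)) (fun _ b k => sn b • k) ?_ hΦ).1 m hm
  intro i Ψ hΨ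
  have e1 : ∀ k : M2 ℝ, sn false • k = k := fun k => by simp [sn]
  have e2 : ∀ k : M2 ℝ, sn true • k = -k := fun k => by simp [sn]
  simp only [e1, e2]
  have hself : ∀ h : ι → M2 ℝ, (∀ j, (h j).det = 1) → ∃ α Γ,
      (∀ k : M2 ℝ, k.det = 1 → α + Lf Γ k ≠ 0) ∧ ∀ k : M2 ℝ, k.det = 1 →
      (sw (d i) false : ℂ) * Ψ (update h i k) + sw (d i) true * Ψ (update h i (-k)) =
        d i * α + Lf Γ k := by
    intro h hh
    obtain ⟨α, Γ, H⟩ := hΨ.2 i h hh
    refine ⟨α, Γ, fun k hk => H k hk ▸ hΨ.1 _ (det_update hh i hk), fun k hk => ?_⟩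
    rw [H k hk, H (-k) (by rw [det_neg2, hk]), Lf_neg]
    simp [sw]; ring
  refine ⟨fun h hh => ?_, fun j h hh => ?_⟩
  · obtain ⟨α, Γ, H1, H2⟩ := hself h hh
    beta_reduce
    rw [H2 _ (hh i)]
    exact ellipse H1 (hd0 i) (hd i) (hh i)
  · by_cases hj : j = i
    · subst hj
      obtain ⟨α, Γ, -, H2⟩ := hself h hh
      exact ⟨d j * α, Γ, fun k hk => by simp only [update_self, update_idem, H2 k hk]⟩
    · obtain ⟨α, Γ, H⟩ := hΨ.2 j _ (det_update hh i (hh i))
      obtain ⟨α', Γ', H'⟩ := hΨ.2 j _ (det_update hh i ((det_neg2 _).trans (hh i)))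
      refine ⟨sw (d i) false * α + sw (d i) true * α',
        (sw (d i) false : ℂ) • Γ + (sw (d i) true : ℂ) • Γ', fun k hk => ?_⟩
      simp only [update_of_ne (Ne.symm hj), update_comm hj, H k hk, H' k hk, Lf_comb']
      ring

/-- averaging a multi-affine function over independent bits. -/
theorem avg_aff (f : (ι → ℝ) → ℝ)
    (hf : ∀ i x c, f (update x i c) = (1 - c) * f (update x i 0) + c * f (update x i 1))
    (p : ι → ℝ) : ∑ ξ : ι → Bool, (∏ i, if ξ i = true then p i else 1 - p i) *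
      f (fun i => if ξ i = true then 1 else 0) = f p := by
  refine (bool_ind (fun g : (ι → ℝ) → ℝ => (∀ i x c, g (update x i c) =
      (1 - c) * g (update x i 0) + c * g (update x i 1)) ∧ g p = f p)
    (fun i b => if b = true then p i else 1 - p i) (fun _ b _ => if b = true then 1 else 0)
    ?_ ⟨hf, rfl⟩).2
  rintro i g ⟨hg, hp⟩
  simp only [Bool.false_eq_true, if_false, if_true, ← hg i _ (p i)]
  refine ⟨fun j x c => ?_, by simpa using hp⟩
  by_cases hj : j = i
  · subst hj; simp only [update_idem]; ring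
  · simp only [update_comm hj]; exact hg j _ c

end iter

section det
variable {n : Type} [Fintype n] [DecidableEq n]

lemma det_aff (N : Matrix n n ℝ) (a b : n → ℝ) (c : ℝ) :
    (N + c • vecMulVec a b).det = (1 - c) * N.det + c * (N + vecMulVec a b).det := by
  set M : Matrix (n ⊕ Unit) (n ⊕ Unit) ℝ := fromBlocks N (Matrix.of fun i _ => -a i) 0 1
  have key : ∀ r : ℝ, (M.updateRow (Sum.inr ()) (Sum.elim (r • b) fun _ => 1)).det =
      (N + r • vecMulVec a b).det := by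
    intro r
    have : M.updateRow (Sum.inr ()) (Sum.elim (r • b) fun _ => 1) =
        fromBlocks N (Matrix.of fun i _ => -a i) (Matrix.of fun _ j => r * b j) 1 := by
      ext (i | i) (j | j) <;> simp [M, updateRow_apply]
    rw [this, det_fromBlocks_one₂₂]
    congr 1
    ext i j; simp [mul_apply, vecMulVec_apply]
  have h0 := key 0
  have h1 := key 1
  rw [zero_smul ℝ (vecMulVec a b), add_zero] at h0
  rw [one_smul ℝ (vecMulVec a b)] at h1
  rw [← key c, ← h0, ← h1, ← det_updateRow_smul, ← det_updateRow_smul, ← det_updateRow_add]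
  congr 2
  funext j; rcases j with j | j <;> simp

lemma det_rank_one {N : Matrix n n ℝ} (hN : N.det ≠ 0) (a b : n → ℝ) :
    (N - vecMulVec a b).det = N.det * (1 - b ⬝ᵥ N⁻¹ *ᵥ a) := by
  have h1 : N - vecMulVec a b =
      N * (1 + replicateCol Unit (-(N⁻¹ *ᵥ a)) * replicateRow Unit b) := by
    rw [← vecMulVec_eq, Matrix.mul_add, Matrix.mul_one, mul_vecMulVec, mulVec_neg,
      mulVec_mulVec, mul_nonsing_inv _ hN.isUnit, one_mulVec, neg_vecMulVec, sub_eq_add_neg]
  rw [h1, det_mul, det_one_add_replicateCol_mul_replicateRow, dotProduct_neg, sub_eq_add_neg]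

/-- complexification. -/
def cx (h : M2 ℝ) : M2 ℂ := h.map Complex.ofReal

lemma aff_det {N : Matrix n n ℂ} (hN : N.det ≠ 0) (U : Matrix n (Fin 2) ℂ)
    (V : Matrix (Fin 2) n ℂ) (h : M2 ℝ) : ∃ α Γ, ∀ k : M2 ℝ, k.det = 1 →
      (N - U * (cx k - cx h) * V).det = α + Lf Γ k := by
  set C := V * N⁻¹ * U with hC
  refine ⟨N.det * (1 + (cx h * C).trace + C.det * (1 + (cx h).det)),
    N.det • !![-C 0 0 - C.det * h 1 1, -C 1 0 + C.det * h 1 0;
      -C 0 1 + C.det * h 0 1, -C 1 1 - C.det * h 0 0], fun k hk => ?_⟩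
  have h1 : N - U * (cx k - cx h) * V = N * (1 - N⁻¹ * U * ((cx k - cx h) * V)) := by
    rw [Matrix.mul_sub N, Matrix.mul_one, ← Matrix.mul_assoc N, ← Matrix.mul_assoc N,
      mul_nonsing_inv _ hN.isUnit, Matrix.one_mul, Matrix.mul_assoc]
  have h2 : (cx k - cx h) * V * (N⁻¹ * U) = (cx k - cx h) * C := by
    simp only [hC, Matrix.mul_assoc]
  have hk' : (k 0 0 : ℂ) * k 1 1 - k 0 1 * k 1 0 = 1 := by
    rw [det_fin_two] at hk; exact_mod_cast hk
  rw [h1, det_mul, det_one_sub_mul_comm, h2, det_two, det_mul]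
  generalize C.det = D
  simp [Lf, cx, det_fin_two, trace_fin_two, mul_apply]
  linear_combination N.det * D * hk'

end det

end Crest.Agent.N337.LY0
end

-- ▼ part N337/S27/LY0C
section

/-!
# Row 337, (N0) part C: the space-time determinant with `SL₂(ℝ)` insertions does not vanish
-/

set_option autoImplicit false
set_option linter.unusedSectionVars false

namespace Crest.Agent.N337.LY0

open Finset Equiv Matrix Function Crest.Agent.N337.Rep

/-- the invariant form. -/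
def qf (a : Fin 2 → ℂ) : ℝ := (a 0).re * (a 1).im - (a 0).im * (a 1).re

/-- its polarisation. -/
def bq (a b : Fin 2 → ℂ) : ℝ :=
  (a 0).re * (b 1).im - (a 0).im * (b 1).re + (b 0).re * (a 1).im - (b 0).im * (a 1).re

lemma qf_add (a b : Fin 2 → ℂ) (r : ℝ) :
    qf (a + (r : ℂ) • b) = qf a + r * bq a b + r ^ 2 * qf b := by
  simp [qf, bq]; ring

lemma qf_mul (h : M2 ℝ) (a : Fin 2 → ℂ) : qf (cx h *ᵥ a) = h.det * qf a := by
  simp [qf, cx, mulVec, dotProduct, det_fin_two]; ring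

/-- sink, then source. -/
def Cm (σ τ : ℂ) : M2 ℂ := !![1, τ; σ, 1 + σ * τ]

lemma qf_Cm (σ τ : ℂ) (a : Fin 2 → ℂ) : qf (Cm σ τ *ᵥ a) =
    qf a + (-τ.im) * Complex.normSq (a 1) + σ.im * Complex.normSq (a 0 + τ * a 1) := by
  simp [qf, Cm, mulVec, dotProduct, Complex.normSq_apply]; ring

lemma qf_Cm_le {σ τ : ℂ} (hσ : 0 < σ.im) (hτ : τ.im < 0) (a : Fin 2 → ℂ) :
    qf a ≤ qf (Cm σ τ *ᵥ a) ∧ (a ≠ 0 → qf a < qf (Cm σ τ *ᵥ a)) := by
  rw [qf_Cm]
  have h1 := mul_nonneg (neg_pos.2 hτ).le (Complex.normSq_nonneg (a 1))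
  have h2 := mul_nonneg hσ.le (Complex.normSq_nonneg (a 0 + τ * a 1))
  refine ⟨by linarith, fun ha => ?_⟩
  by_cases e1 : a 1 = 0
  · have e0 : a 0 + τ * a 1 ≠ 0 := fun h => ha (by
      rw [e1, mul_zero, add_zero] at h
      funext i; fin_cases i; exacts [h, e1])
    have := mul_pos hσ (Complex.normSq_pos.2 e0)
    linarith
  · have := mul_pos (neg_pos.2 hτ) (Complex.normSq_pos.2 e1)
    linarith

variable {Λ : Type} [Fintype Λ] [DecidableEq Λ] {T : ℕ} [NeZero T]

lemma ev_sq (x y : Λ) : ∑ w, Rep.ev x y w ^ 2 = 2 ∨ ∀ w, Rep.ev x y w = 0 := by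
  by_cases h : x = y
  · right; intro w; simp [Rep.ev, h]
  · left
    have : ∀ w, Rep.ev x y w ^ 2 = (if w = x then 1 else 0) + if w = y then 1 else 0 := by
      intro w; unfold Rep.ev
      by_cases h1 : w = x
      · subst h1; simp [h]
      · by_cases h2 : w = y
        · subst h2; simp [h1]
        · simp [h1, h2]
    simp only [this, sum_add_distrib, sum_ite_eq', mem_univ, if_true]; norm_num

lemma qf_O {e : Λ → ℝ} (he : ∑ w, e w ^ 2 = 2 ∨ ∀ w, e w = 0) {h : M2 ℝ} (hh : h.det = 1)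
    (ψ : Λ → Fin 2 → ℂ) :
    ∑ y, qf (ψ y + (e y : ℂ) • ((cx h - 1) *ᵥ ∑ x, ((e x / 2 : ℝ) : ℂ) • ψ x)) =
      ∑ y, qf (ψ y) := by
  rcases he with he | he
  · set w := ∑ x, ((e x / 2 : ℝ) : ℂ) • ψ x with hw
    set δ := (cx h - 1) *ᵥ w with hδ
    have h1 : ∑ y, e y * bq (ψ y) δ = 2 * bq w δ := by
      simp only [bq, hw, Finset.sum_apply, Pi.smul_apply, smul_eq_mul, Complex.re_sum,
        Complex.im_sum, Complex.re_ofReal_mul, Complex.im_ofReal_mul, sum_mul, mul_sum,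
        ← sum_sub_distrib, ← sum_add_distrib]
      exact sum_congr rfl fun y _ => by ring
    have h2 := qf_add w δ 1
    rw [Complex.ofReal_one, one_smul, show w + δ = cx h *ᵥ w by
      rw [hδ, sub_mulVec, one_mulVec, add_sub_cancel], qf_mul, hh] at h2
    simp only [qf_add, sum_add_distrib, h1, ← sum_mul, he]
    linarith
  · simp [he]

variable (ex ey : Fin T → Λ)

/-- the time step with an insertion on the antisymmetric edge vector. -/
noncomputable def Sh (h : Fin T → M2 ℝ) :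
    Matrix ((Fin T × Λ) × Fin 2) ((Fin T × Λ) × Fin 2) ℂ := Matrix.of fun a b =>
  if a.1.1 = b.1.1 + 1 then (if a.1.2 = b.1.2 then (1 : M2 ℂ) a.2 b.2 else 0) +
    (Rep.ev (ex b.1.1) (ey b.1.1) a.1.2 : ℂ) * ((Rep.ev (ex b.1.1) (ey b.1.1) b.1.2 / 2 : ℝ) : ℂ) *
      (cx (h b.1.1) - 1) a.2 b.2 else 0

/-- the vertex insertions. -/
def Gm {S : Type} [DecidableEq S] (g : S → M2 ℂ) : Matrix (S × Fin 2) (S × Fin 2) ℂ :=
  Matrix.of fun a b => if a.1 = b.1 then g a.1 a.2 b.2 else 0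

lemma Gm_mulVec {S : Type} [Fintype S] [DecidableEq S] (g : S → M2 ℂ) (φ : S × Fin 2 → ℂ)
    (v : S) : (fun i => (Gm g *ᵥ φ) (v, i)) = g v *ᵥ fun j => φ (v, j) := by
  funext i
  simp [Gm, mulVec, dotProduct, Fintype.sum_prod_type, ite_mul]

lemma Sh_mulVec (h : Fin T → M2 ℝ) (ψ : (Fin T × Λ) × Fin 2 → ℂ) (s : Fin T) (y : Λ) :
    (fun i => (Sh ex ey h *ᵥ ψ) ((s + 1, y), i)) = (fun i => ψ ((s, y), i)) +
      (Rep.ev (ex s) (ey s) y : ℂ) • ((cx (h s) - 1) *ᵥ
        ∑ x, ((Rep.ev (ex s) (ey s) x / 2 : ℝ) : ℂ) • fun i => ψ ((s, x), i)) := by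
  funext i
  simp only [Sh, mulVec, dotProduct, Fintype.sum_prod_type, of_apply, add_left_inj, ite_mul,
    zero_mul, Pi.add_apply, Pi.smul_apply, smul_eq_mul, Finset.sum_apply, sum_ite_irrel,
    sum_const_zero, sum_ite_eq, mem_univ, if_true, add_mul, sum_add_distrib, one_apply, one_mul,
    mul_sum]
  rw [sum_comm]
  congr 1
  exact sum_congr rfl fun j _ => sum_congr rfl fun x _ => by ring

theorem base_ne {σ τ : Fin T × Λ → ℂ} (hσ : ∀ v, 0 < (σ v).im) (hτ : ∀ v, (τ v).im < 0)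
    {h : Fin T → M2 ℝ} (hh : ∀ s, (h s).det = 1) {k : Fin T × Λ → M2 ℝ}
    (hk : ∀ v, (k v).det = 1) :
    (1 - Sh ex ey h * Gm fun v => cx (k v) * Cm (σ v) (τ v)).det ≠ 0 := by
  intro h0
  obtain ⟨φ, hφ, h1⟩ := exists_mulVec_eq_zero_iff.2 h0
  rw [sub_mulVec, one_mulVec, sub_eq_zero, ← mulVec_mulVec] at h1
  set ψ := (Gm fun v => cx (k v) * Cm (σ v) (τ v)) *ᵥ φ with hψ
  have e1 : ∀ v, qf (fun i => ψ (v, i)) = qf (Cm (σ v) (τ v) *ᵥ fun j => φ (v, j)) := by
    intro v; rw [hψ, Gm_mulVec, ← mulVec_mulVec, qf_mul, hk, one_mul]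
  have e2 : ∑ v, qf (fun i => φ (v, i)) = ∑ v, qf fun i => ψ (v, i) := by
    rw [Fintype.sum_prod_type, Fintype.sum_prod_type, ← Equiv.sum_comp (Equiv.addRight (1 : Fin T))]
    refine sum_congr rfl fun s _ => ?_
    rw [← qf_O (ev_sq (ex s) (ey s)) (hh s) fun y i => ψ ((s, y), i)]
    refine sum_congr rfl fun y _ => ?_
    rw [← Sh_mulVec, ← h1]; rfl
  obtain ⟨⟨v, i⟩, hv⟩ := Function.ne_iff.1 hφ
  refine absurd e2 (ne_of_lt (sum_lt_sum (fun w _ => ?_) ⟨v, mem_univ _, ?_⟩))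
  · rw [e1]; exact (qf_Cm_le (hσ w) (hτ w) _).1
  · rw [e1]; exact (qf_Cm_le (hσ v) (hτ v) _).2 fun h' => hv (congrFun h' i)

lemma Sh_update (h : Fin T → M2 ℝ) (s : Fin T) : ∃ (U : Matrix _ (Fin 2) ℂ)
    (V : Matrix (Fin 2) _ ℂ), ∀ k, Sh ex ey (update h s k) =
      Sh ex ey h + U * (cx k - cx (h s)) * V := by
  refine ⟨Matrix.of fun a i => if a.1.1 = s + 1 ∧ a.2 = i then Rep.ev (ex s) (ey s) a.1.2 else 0,
    Matrix.of fun l b => if b.1.1 = s ∧ b.2 = l then ((Rep.ev (ex s) (ey s) b.1.2 / 2 : ℝ) : ℂ)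
      else 0, fun k => ?_⟩
  ext ⟨⟨a, y⟩, i⟩ ⟨⟨b, x⟩, j⟩
  simp only [Sh, of_apply, Matrix.add_apply, mul_apply, Matrix.sub_apply]
  by_cases hb : b = s
  · subst hb
    by_cases ha : a = b + 1
    · simp [ha]; ring
    · simp [ha]
  · simp [hb]

lemma Gm_update {S : Type} [Fintype S] [DecidableEq S] (k : S → M2 ℝ) (C : S → M2 ℂ) (v : S)
    (k' : M2 ℝ) : (Gm fun w => cx (update k v k' w) * C w) =
      (Gm fun w => cx (k w) * C w) + J ℂ v * (cx k' - cx (k v)) * (C v * (J ℂ v)ᵀ) := by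
  rw [← Matrix.mul_assoc, Matrix.mul_assoc (J ℂ v)]
  change _ = _ + E v v _
  ext ⟨a, i⟩ ⟨b, j⟩
  simp only [Gm, of_apply, Matrix.add_apply, E_apply, Matrix.sub_mul, Matrix.sub_apply]
  by_cases ha : a = v
  · subst ha
    by_cases hb : a = b
    · subst hb; simp
    · simp [hb, Ne.symm hb]
  · simp [ha]

/-- the determinant as a function of all insertions. -/
noncomputable def Ph (σ τ : Fin T × Λ → ℂ) (H : Fin T ⊕ Fin T × Λ → M2 ℝ) : ℂ :=
  (1 - Sh ex ey (fun s => H (.inl s)) * Gm fun v => cx (H (.inr v)) * Cm (σ v) (τ v)).det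

theorem good_Ph {σ τ : Fin T × Λ → ℂ} (hσ : ∀ v, 0 < (σ v).im) (hτ : ∀ v, (τ v).im < 0) :
    Good (Ph ex ey σ τ) := by
  have h0 : ∀ H : Fin T ⊕ Fin T × Λ → M2 ℝ, (∀ i, (H i).det = 1) → Ph ex ey σ τ H ≠ 0 :=
    fun H hH => base_ne ex ey hσ hτ (fun _ => hH _) fun _ => hH _
  refine ⟨h0, fun i H hH => ?_⟩
  rcases i with s | v
  · obtain ⟨U, V, hUV⟩ := Sh_update ex ey (fun s => H (.inl s)) s
    obtain ⟨α, Γ, h⟩ := aff_det (h0 H hH) U
      (V * Gm fun v => cx (H (.inr v)) * Cm (σ v) (τ v)) (H (.inl s))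
    refine ⟨α, Γ, fun k hk => ?_⟩
    have e : (fun r => update H (.inl s) k (.inl r)) = update (fun r => H (.inl r)) s k := by
      funext r; by_cases hr : r = s
      · subst hr; simp
      · simp [hr]
    rw [← h k hk, Ph, e, hUV]
    simp only [ne_eq, reduceCtorEq, not_false_eq_true, update_of_ne, Matrix.add_mul,
      Matrix.mul_assoc, sub_sub]
  · obtain ⟨α, Γ, h⟩ := aff_det (h0 H hH) (Sh ex ey (fun s => H (.inl s)) * J ℂ v)
      (Cm (σ v) (τ v) * (J ℂ v)ᵀ) (H (.inr v))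
    refine ⟨α, Γ, fun k hk => ?_⟩
    have e : ∀ w, update H (.inr v) k (.inr w) = update (fun r => H (.inr r)) v k w := by
      intro r; by_cases hr : r = v
      · subst hr; simp
      · simp [hr]
    rw [← h k hk, Ph]
    simp only [e, Gm_update, ne_eq, reduceCtorEq, not_false_eq_true, update_of_ne,
      Matrix.mul_add, Matrix.mul_assoc, sub_sub]

lemma Sh_sn (ξ : Fin T → Bool) (g : Fin T × Λ → M2 ℂ) :
    Sh ex ey (fun s => sn (ξ s) • (1 : M2 ℝ)) * Gm g = ∑ v, E (Sg ex ey ξ v) v (g v) := by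
  have h1 : Sh ex ey (fun s => sn (ξ s) • (1 : M2 ℝ)) =
      Matrix.of fun a b => if a.1 = Sg ex ey ξ b.1 ∧ a.2 = b.2 then 1 else 0 := by
    ext ⟨⟨a, y⟩, i⟩ ⟨⟨b, x⟩, j⟩
    have h := congrArg Complex.ofReal (ite_sg (ex b) (ey b) (ξ b) y x)
    simp only [Sh, of_apply, Sg_apply, Prod.mk.injEq, cx, Matrix.sub_apply, map_apply,
      Matrix.smul_apply, one_apply, smul_eq_mul, sn]
    by_cases ha : a = b + 1
    · by_cases hij : i = j
      · simp only [ha, hij, true_and, and_true, if_true]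
        simp only [apply_ite Complex.ofReal, Complex.ofReal_sub, Complex.ofReal_mul,
          Complex.ofReal_one, Complex.ofReal_zero] at h
        rw [h]; cases ξ b <;> simp; ring
      · simp [hij]
    · simp [ha]
  rw [h1]
  ext ⟨a, i⟩ ⟨b, j⟩
  rw [Matrix.sum_apply, mul_apply, sum_eq_single (b, i), sum_eq_single b]
  · simp [E_apply, Gm]
  · intro v _ hv; simp [E_apply, Ne.symm hv]
  · simp
  · rintro ⟨v, l⟩ _ hv
    by_cases h : v = b
    · have : i ≠ l := fun h' => hv (by rw [h, h'])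
      simp [this]
    · simp [Gm, h]
  · simp

end Crest.Agent.N337.LY0
end

-- ▼ part N337/S27/LY0D

/-!
# Row 337, (N0) part D: Lee–Yang nonvanishing for the loop generating function
-/

set_option autoImplicit false
set_option linter.unusedSectionVars false

namespace Crest.Agent.N337.LY0

open Finset Equiv Matrix Function Crest.Agent.N337.Rep

section gen
variable {S : Type} [Fintype S] [DecidableEq S] {R : Type} [CommRing R]

/-- vertex matrix: sink `t`, then fugacity `b`, then source `s`; entry `(out, in)`. -/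
def mv (s t b : R) : M2 R := !![1, t; s, b + s * t]

/-- the loop generating function `∏ (Tr M - 2 det M)`. -/
noncomputable def Ps (π : Perm S) (s t b : S → R) : R :=
  ∏ c, (Tr π (fun v => mv (s v) (t v) (b v)) c - 2 * ∏ v ∈ ob π c, b v)

lemma Ps_map {R' : Type} [CommRing R'] (f : R →+* R') (π : Perm S) (s t b : S → R) :
    f (Ps π s t b) = Ps π (fun v => f (s v)) (fun v => f (t v)) fun v => f (b v) := by
  simp only [Ps, map_prod, map_sub, map_mul, Tr_map, map_ofNat]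
  refine prod_congr rfl fun c _ => ?_
  congr 2
  funext v; ext i j; fin_cases i <;> fin_cases j <;> simp [mv]

lemma Ps_gauge (π : Perm S) {l l' : R} (h : l * l' = 1) (s t b : S → R) :
    Ps π (fun v => l * s v) (fun v => l' * t v) b = Ps π s t b := by
  unfold Ps
  refine prod_congr rfl fun c _ => ?_
  rw [← Tr_conj (D := !![1, 0; 0, l]) (D' := !![1, 0; 0, l'])
    (by ext i j; fin_cases i <;> fin_cases j <;> simp [mul_comm l', h])
    (by ext i j; fin_cases i <;> fin_cases j <;> simp [h]) π fun v => mv (s v) (t v) (b v)]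
  congr 2
  funext v; ext i j; fin_cases i <;> fin_cases j <;> simp [mv, mul_comm]
  linear_combination (-b v) * h

lemma prod_two {ι : Type} [Fintype ι] [DecidableEq ι] (F : ι → Bool → R) :
    ∏ i, (F i true + F i false) = ∑ χ : ι → Bool, ∏ i, F i (χ i) := by
  have := prod_univ_sum (fun _ : ι => (univ : Finset Bool)) F
  rw [Fintype.piFinset_univ] at this
  rw [← this]; simp

lemma eps_sum (π : Perm S) (d : S → ℝ) (τ : Orb π → ℂ) :
    ∑ ε : S → Bool, (∏ v, (sw (d v) (ε v) : ℂ)) *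
      ∏ c, (1 - (∏ v ∈ ob π c, (sn (ε v) : ℂ)) * τ c + 1) =
      ∏ c, (2 * ∏ v ∈ ob π c, (d v : ℂ) - τ c) := by
  have h1 : ∀ ε : S → Bool, ∏ c, (1 - (∏ v ∈ ob π c, (sn (ε v) : ℂ)) * τ c + 1) =
      ∑ χ : Orb π → Bool, (∏ c, if χ c = true then -τ c else 2) *
        ∏ v, if χ (o π v) = true then (sn (ε v) : ℂ) else 1 := by
    intro ε
    have := prod_two fun c b => (if b = true then -τ c else 2) *
      ∏ v ∈ ob π c, if b = true then (sn (ε v) : ℂ) else 1
    simp only [if_true, Bool.false_eq_true, if_false, prod_const_one] at this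
    rw [prod_congr rfl fun c _ => show _ = -τ c * ∏ v ∈ ob π c, (sn (ε v) : ℂ) + 2 * 1 by ring,
      this]
    refine sum_congr rfl fun χ _ => ?_
    rw [prod_mul_distrib, ← prod_fiberwise univ (o π)]
    congr 1
    exact prod_congr rfl fun c _ => prod_congr rfl fun v hv => by rw [(mem_filter.1 hv).2]
  have h2 := prod_two fun c b => (if b = true then -τ c else 2) *
    ∏ v ∈ ob π c, if b = true then (1 : ℂ) else d v
  simp only [if_true, Bool.false_eq_true, if_false, prod_const_one] at h2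
  rw [prod_congr rfl fun c _ => show 2 * ∏ v ∈ ob π c, (d v : ℂ) - τ c =
    -τ c * 1 + 2 * ∏ v ∈ ob π c, (d v : ℂ) by ring, h2]
  simp only [h1, mul_sum]
  rw [sum_comm]
  refine sum_congr rfl fun χ _ => ?_
  have h3 := prod_two fun v b => (sw (d v) b : ℂ) * if χ (o π v) = true then (sn b : ℂ) else 1
  simp only [mul_left_comm _ (∏ c, if χ c = true then -τ c else 2), ← prod_mul_distrib,
    ← mul_sum, ← h3]
  rw [prod_mul_distrib, ← prod_fiberwise univ (o π)]
  congr 1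
  refine prod_congr rfl fun c _ => prod_congr rfl fun v hv => ?_
  rw [(mem_filter.1 hv).2]
  cases χ c <;> simp [sw, sn] <;> ring

lemma neg_card (π : Perm S) :
    ∏ _c : Orb π, (-1 : ℝ) = (-1) ^ Fintype.card S * ((Perm.sign π : ℤ) : ℝ) := by
  have h := det_mat π (fun _ => 0) fun _ => 1
  have e : mat π (fun _ => 0) (fun _ => 1) = -(π.permMatrix ℝ)ᵀ := by
    ext i j; simp [mat_apply, PEquiv.toMatrix_apply, eq_comm, Equiv.eq_symm_apply]
  rw [e, det_neg, det_transpose, det_permutation] at h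
  rw [h]
  refine prod_congr rfl fun c _ => ?_
  rw [pr_zero (o_bp c) rfl, pr_one fun _ _ => rfl, zero_sub]

lemma push {ι : Type} [Fintype ι] [DecidableEq ι] (w : ι → Bool → R) (φ : ι → Bool → Bool)
    (f : (ι → Bool) → R) : ∑ ξ : ι → Bool, (∏ i, w i (ξ i)) * f (fun i => φ i (ξ i)) =
      ∑ η : ι → Bool, (∏ i, ((if φ i true = η i then w i true else 0) +
        if φ i false = η i then w i false else 0)) * f η := by
  simp only [fun η : ι → Bool => prod_two fun i b => if φ i b = η i then w i b else 0, sum_mul]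
  rw [sum_comm]
  refine sum_congr rfl fun ξ _ => ?_
  rw [sum_eq_single fun i => φ i (ξ i)]
  · simp
  · intro η _ hη
    obtain ⟨i, hi⟩ := Function.ne_iff.1 hη
    rw [prod_eq_zero (mem_univ i) (if_neg (Ne.symm hi)), zero_mul]
  · simp

end gen

variable {Λ : Type} [Fintype Λ] [DecidableEq Λ] {T : ℕ} [NeZero T] (ex ey : Fin T → Λ)

lemma sign_Sg : ∃ κ : ℝ, κ ≠ 0 ∧ ∀ ξ : Fin T → Bool, ∏ _c : Orb (Sg ex ey ξ), (-1 : ℝ) =
    κ * ∏ s, if ex s = ey s then 1 else sn (ξ s) := by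
  set ρ : Perm (Fin T × Λ) := Equiv.prodCongr (Equiv.addRight 1) (Equiv.refl Λ)
  refine ⟨(-1) ^ Fintype.card (Fin T × Λ) * ((Perm.sign ρ : ℤ) : ℝ), by simp, fun ξ => ?_⟩
  have e : Sg ex ey ξ = ρ * Equiv.prodCongrRight fun s => sg (ex s) (ey s) (ξ s) := by
    ext ⟨s, x⟩ <;> rfl
  rw [neg_card, e, Perm.sign_mul, Perm.sign_prodCongrRight, mul_assoc]
  push_cast
  congr 2
  refine prod_congr rfl fun s _ => ?_
  by_cases h : ex s = ey s
  · cases ξ s <;> simp [sg, h]
  · cases ξ s <;> simp [sg, sn, h]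

variable {p : Fin T → ℝ} {b : Fin T × Λ → ℝ}

theorem ne_core (hp : ∀ s, 0 ≤ p s ∧ p s ≤ 1) (hp2 : ∀ s, p s ≠ 1 / 2)
    (hp0 : ∀ s, ex s = ey s → p s = 0) (hb : ∀ v, 0 < b v ∧ b v ≤ 1) {σ τ : Fin T × Λ → ℂ}
    (hσ : ∀ v, 0 < (σ v).im) (hτ : ∀ v, (τ v).im < 0) :
    ∑ ξ, (Pw p ξ : ℂ) * Ps (Sg ex ey ξ) σ τ (fun v => (b v : ℂ)) ≠ 0 := by
  have hr : ∀ v, 0 < √(b v) := fun v => Real.sqrt_pos.2 (hb v).1
  have hr' : ∀ v, ((√(b v) : ℝ) : ℂ) ≠ 0 := fun v => by exact_mod_cast (hr v).ne'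
  have hsq : ∀ v, ((√(b v) : ℝ) : ℂ) * (√(b v) : ℝ) = b v := fun v => by
    exact_mod_cast Real.mul_self_sqrt (hb v).1.le
  set k : Fin T × Λ → M2 ℝ := fun v => !![(√(b v))⁻¹, 0; 0, √(b v)] with hk
  have hk1 : ∀ v, (k v).det = 1 := fun v => by simp [hk, det_fin_two, (hr v).ne']
  have H := (good_Ph ex ey (σ := fun v => σ v / b v) (τ := τ)
    (fun v => by rw [Complex.div_ofReal_im]; exact div_pos (hσ v) (hb v).1) hτ).avg
    (d := Sum.elim (fun s => 1 - 2 * p s) fun v => √(b v)) (m := Sum.elim (fun _ => 1) k)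
    (by rintro (s | v)
        · intro h; apply hp2 s; simp only [Sum.elim_inl] at h; linarith
        · exact (hr v).ne')
    (by rintro (s | v)
        · simp only [Sum.elim_inl]; rw [abs_le]; constructor <;> linarith [(hp s).1, (hp s).2]
        · simp only [Sum.elim_inr]; rw [abs_of_pos (hr v)]; exact Real.sqrt_le_one.2 (hb v).2)
    (by rintro (s | v); exacts [det_one, hk1 v])
  obtain ⟨κ, hκ, hs⟩ := sign_Sg ex ey
  set g : Fin T × Λ → M2 ℂ := fun v => cx (k v) * Cm (σ v / b v) (τ v) with hg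
  have hg1 : ∀ v, (g v).det = 1 := fun v => by
    have := hr' v
    simp [hg, hk, cx, Cm, det_fin_two, mul_apply]; field_simp; ring
  have hg2 : ∀ v, ((√(b v) : ℝ) : ℂ) • g v = mv (σ v) (τ v) (b v) := fun v => by
    have h1 := hr' v
    have h2 := hsq v
    ext i j; fin_cases i <;> fin_cases j <;> simp [hg, hk, cx, Cm, mv, mul_apply, h1] <;>
      rw [← h2] <;> field_simp
  intro h0
  apply H
  rw [← (Equiv.sumArrowEquivProdArrow _ _ Bool).symm.sum_comp, Fintype.sum_prod_type]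
  have key : ∀ ξ : Fin T → Bool, (∏ v, ((√(b v) : ℝ) : ℂ)) * ∑ ε : Fin T × Λ → Bool,
      (∏ v, (sw (√(b v)) (ε v) : ℂ)) * (1 - Sh ex ey (fun s => sn (ξ s) • (1 : M2 ℝ)) *
        Gm fun v => cx (sn (ε v) • k v) * Cm (σ v / b v) (τ v)).det =
      (κ * ∏ s, if ex s = ey s then 1 else sn (ξ s) : ℝ) *
        Ps (Sg ex ey ξ) σ τ fun v => (b v : ℂ) := by
    intro ξ
    have e : ∀ (r : ℝ) v, cx (r • k v) * Cm (σ v / b v) (τ v) = (r : ℂ) • g v := by
      intro r v; rw [hg, ← Matrix.smul_mul]; congr 1; ext i j; simp [cx]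
    have e' : ∀ (c : Bool) v, ((sn c : ℂ) • g v).det = 1 := by
      intro c v; rw [det_smul, hg1]; cases c <;> simp [sn]
    simp only [Sh_sn, det_loops, e, e', prod_const_one, Tr_smul, eps_sum]
    rw [← hs, ← prod_fiberwise univ (o (Sg ex ey ξ)), ← prod_mul_distrib, Ps]
    push_cast
    rw [← prod_mul_distrib]
    refine prod_congr rfl fun c _ => ?_
    simp only [← hg2, Tr_smul]
    rw [prod_congr rfl fun v _ => (hsq v).symm, prod_mul_distrib]
    ring
  have hne : (∏ v, ((√(b v) : ℝ) : ℂ)) ≠ 0 := prod_ne_zero_iff.2 fun v _ => hr' v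
  refine (mul_eq_zero.1 ?_).resolve_left hne
  rw [mul_sum, ← mul_zero (κ : ℂ), ← h0, mul_sum]
  refine sum_congr rfl fun ξ _ => ?_
  have e : (Pw p ξ : ℂ) = (∏ s, (sw (1 - 2 * p s) (ξ s) : ℂ)) *
      (∏ s, if ex s = ey s then 1 else sn (ξ s) : ℝ) := by
    norm_cast
    rw [← prod_mul_distrib, Pw]
    refine prod_congr rfl fun s _ => ?_
    by_cases h : ex s = ey s
    · cases ξ s <;> simp [h, hp0 s h, wb, sw]
    · cases ξ s <;> simp [h, wb, sw, sn] <;> ring
  have := key ξ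
  simp only [Fintype.prod_sum_type, Ph, Equiv.sumArrowEquivProdArrow_symm_apply_inl,
    Equiv.sumArrowEquivProdArrow_symm_apply_inr, Sum.elim_inl, Sum.elim_inr, mul_assoc,
    ← mul_sum]
  rw [mul_left_comm, this, e]
  push_cast; ring

lemma sum_red (p : Fin T → ℝ) (f : Perm (Fin T × Λ) → ℂ) :
    ∑ ξ, (Pw p ξ : ℂ) * f (Sg ex ey ξ) =
      ∑ ξ, (Pw (fun s => if ex s = ey s then 0 else p s) ξ : ℂ) * f (Sg ex ey ξ) := by
  have h := push (fun s c => (wb (p s) c : ℂ)) (fun s c => if ex s = ey s then false else c)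
    fun ξ => f (Sg ex ey ξ)
  have e : ∀ ξ : Fin T → Bool,
      Sg ex ey (fun s => if ex s = ey s then false else ξ s) = Sg ex ey ξ := by
    intro ξ
    ext ⟨s, x⟩
    · rfl
    · by_cases hs : ex s = ey s <;> cases hξ : ξ s <;> simp [Sg_apply, sg, hs, hξ]
  simp only [e] at h
  simp only [Pw, Complex.ofReal_prod, h]
  refine sum_congr rfl fun ξ _ => ?_
  congr 1
  refine prod_congr rfl fun s _ => ?_
  by_cases hs : ex s = ey s <;> cases ξ s <;> simp [hs, wb]

/-- (N0): no zeros off the negative axis. -/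
theorem ne_zero (hp : ∀ s, 0 ≤ p s ∧ p s ≤ 1) (hp2 : ∀ s, p s ≠ 1 / 2)
    (hb : ∀ v, 0 < b v ∧ b v ≤ 1) {s t : Fin T × Λ → ℝ} (hs : ∀ v, 0 < s v) (ht : ∀ v, 0 < t v)
    {w : ℂ} (hw : ¬ (w.im = 0 ∧ w.re ≤ 0)) :
    ∑ ξ, (Pw p ξ : ℂ) * Ps (Sg ex ey ξ) (fun v => w * s v) (fun v => (t v : ℂ))
      (fun v => (b v : ℂ)) ≠ 0 := by
  have h1 : 0 < ‖w‖ + w.re := by
    by_contra h
    have h2 := Complex.abs_re_le_norm w
    have h3 : ‖w‖ = -w.re := by linarith [neg_abs_le w.re, not_lt.1 h]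
    have h4 := Complex.sq_norm w
    rw [h3, Complex.normSq_apply] at h4
    exact hw ⟨by nlinarith, by linarith [norm_nonneg w]⟩
  have hw0 : 0 < ‖w‖ := norm_pos_iff.2 fun h => hw (by simp [h])
  set l : ℂ := Complex.I * (‖w‖ + (starRingEnd ℂ) w) with hl
  have hl1 : 0 < l.im := by simpa [hl] using h1
  have hl0 : l ≠ 0 := fun h => by simp [h] at hl1
  have hl2 : 0 < (l * w).im := by
    have : l * w = Complex.I * (‖w‖ * (w + ‖w‖)) := by
      rw [hl, mul_assoc, add_mul, Complex.conj_mul', mul_add]; ring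
    rw [this]
    simpa [add_comm] using mul_pos hw0 h1
  simp only [← Ps_gauge _ (mul_inv_cancel₀ hl0) (fun v => w * s v)]
  rw [sum_red ex ey p fun π => Ps π _ _ _]
  refine ne_core ex ey (fun r => ?_) (fun r => ?_) (fun r hr => if_pos hr) hb (fun v => ?_)
    fun v => ?_
  · split_ifs; exacts [⟨le_rfl, zero_le_one⟩, hp r]
  · split_ifs; exacts [by norm_num, hp2 r]
  · rw [← mul_assoc, Complex.mul_im, Complex.ofReal_im, Complex.ofReal_re, mul_zero, zero_add]
    exact mul_pos hl2 (hs v)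
  · rw [Complex.mul_im, Complex.ofReal_im, Complex.ofReal_re, mul_zero, zero_add, Complex.inv_im]
    exact mul_neg_of_neg_of_pos (div_neg_of_neg_of_pos (neg_neg_of_pos hl1)
      (Complex.normSq_pos.2 hl0)) (ht v)

end Crest.Agent.N337.LY0
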